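import Vale.Agent.P261.H468.Spec

/-!
# P261, leaf B3: endomorphisms of a law over `k[[X]]`

If `v_i = 0` for `i < m` and `v_m = X` then every endomorphism is a limit of integers.
-/

open Vale.Agent.P251.F Vale.Agent.P217

namespace Vale.Agent.P261

namespace H141

section Lead

variable {R : Type*} [CommRing R]

theorem coeff_pow_lt {A : PowerSeries R} {b : ℕ} (hb : ∀ i < b, PowerSeries.coeff i A = 0)
    (a : ℕ) : ∀ i < b * a, PowerSeries.coeff i (A ^ a) = 0 := by
  intro i hi
  have h2 : (PowerSeries.X : PowerSeries R) ^ (b * a) ∣ A ^ a := by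
    rw [pow_mul]
    exact pow_dvd_pow_of_dvd (PowerSeries.X_pow_dvd_iff.2 hb) a
  exact (PowerSeries.X_pow_dvd_iff.1 h2) i hi

theorem coeff_pow_eq {A : PowerSeries R} {b : ℕ} (hb : ∀ i < b, PowerSeries.coeff i A = 0)
    (a : ℕ) : PowerSeries.coeff (b * a) (A ^ a) = PowerSeries.coeff b A ^ a := by
  obtain ⟨B, rfl⟩ := PowerSeries.X_pow_dvd_iff.2 hb
  rw [mul_pow, ← pow_mul]
  have h1 := PowerSeries.coeff_X_pow_mul (B ^ a) (b * a) 0
  have h2 := PowerSeries.coeff_X_pow_mul B b 0
  rw [zero_add] at h1 h2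
  rw [h1, h2]
  simp

theorem coeff_subst_lt {f A : PowerSeries R} {a b : ℕ} (hb0 : 0 < b)
    (ha : ∀ i < a, PowerSeries.coeff i f = 0) (hb : ∀ i < b, PowerSeries.coeff i A = 0) :
    ∀ i < b * a, PowerSeries.coeff i (PowerSeries.subst A f : PowerSeries R) = 0 := by
  intro i hi
  have hA0 : PowerSeries.constantCoeff A = 0 := by
    rw [← PowerSeries.coeff_zero_eq_constantCoeff_apply]
    exact hb 0 hb0
  rw [PowerSeries.coeff_subst' (hasSubst_of_cc hA0)]
  apply finsum_eq_zero_of_forall_eq_zero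
  intro d
  rcases lt_or_ge d a with h | h
  · rw [ha d h, zero_smul]
  · rw [coeff_pow_lt hb d i (lt_of_lt_of_le hi (Nat.mul_le_mul_left b h)), smul_zero]

theorem coeff_subst_eq {f A : PowerSeries R} {a b : ℕ} (hb0 : 0 < b)
    (ha : ∀ i < a, PowerSeries.coeff i f = 0) (hb : ∀ i < b, PowerSeries.coeff i A = 0) :
    PowerSeries.coeff (b * a) (PowerSeries.subst A f : PowerSeries R) =
      PowerSeries.coeff a f * PowerSeries.coeff b A ^ a := by
  have hA0 : PowerSeries.constantCoeff A = 0 := by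
    rw [← PowerSeries.coeff_zero_eq_constantCoeff_apply]
    exact hb 0 hb0
  rw [PowerSeries.coeff_subst' (hasSubst_of_cc hA0), finsum_eq_single _ a]
  · rw [coeff_pow_eq hb, smul_eq_mul]
  · intro d hd
    rcases lt_or_gt_of_ne hd with h | h
    · rw [ha d h, zero_smul]
    · rw [coeff_pow_lt hb d (b * a) (Nat.mul_lt_mul_of_pos_left h hb0), smul_zero]

end Lead

section Field

variable {k : Type*} [Field k] {p : ℕ} [Fact p.Prime] [CharP k p]

/-- `u^(p^m) = u` forces `u` constant. -/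
theorem const_of_pow_eq {m : ℕ} (hm : 1 ≤ m) {u : PowerSeries k} (hu : u ^ (p ^ m) = u) :
    u = PowerSeries.C (PowerSeries.constantCoeff u) ∧
      PowerSeries.constantCoeff u ^ (p ^ m) = PowerSeries.constantCoeff u := by
  have hq : 1 < p ^ m := Nat.one_lt_pow (by omega) (Fact.out : p.Prime).one_lt
  have hc : PowerSeries.constantCoeff u ^ (p ^ m) = PowerSeries.constantCoeff u := by
    rw [← map_pow, hu]
  refine ⟨?_, hc⟩
  set c := PowerSeries.constantCoeff u with hcdef
  -- `u - c` has the same property and no constant term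
  have : CharP (PowerSeries k) p := by
    rw [CharP.charP_iff_prime_eq_zero (Fact.out : p.Prime)]
    have : ((p : k) : k) = 0 := CharP.cast_eq_zero k p
    rw [← map_natCast (PowerSeries.C (R := k)), this, map_zero]
  have hd : (u - PowerSeries.C c) ^ (p ^ m) = u - PowerSeries.C c := by
    rw [sub_pow_char_pow, hu, ← map_pow, hc]
  have h0 : u - PowerSeries.C c = 0 := by
    by_contra hne
    have h1 : (u - PowerSeries.C c) ^ (p ^ m - 1) = 1 := by
      have h2 : (u - PowerSeries.C c) * (u - PowerSeries.C c) ^ (p ^ m - 1) =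
          (u - PowerSeries.C c) * 1 := by
        rw [mul_one, ← pow_succ', Nat.sub_add_cancel hq.le, hd]
      exact mul_left_cancel₀ hne h2
    have h3 := congrArg PowerSeries.constantCoeff h1
    rw [map_pow, map_sub, PowerSeries.constantCoeff_C, ← hcdef, sub_self, map_one,
      zero_pow (by omega)] at h3
    exact zero_ne_one h3
  exact sub_eq_zero.1 h0


/-- the leading coefficient of an endomorphism. -/
theorem lead_form {m P : ℕ} (hm : 1 ≤ m) (hP : 1 ≤ P) {a : PowerSeries k} (ha : a ≠ 0)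
    (h : a * PowerSeries.X ^ P = PowerSeries.X * a ^ (p ^ m)) :
    ∃ (e : ℕ) (c : k), a = PowerSeries.C c * PowerSeries.X ^ e ∧ c ^ (p ^ m) = c ∧
      e * (p ^ m - 1) = P - 1 := by
  have hq : 1 < p ^ m := Nat.one_lt_pow (by omega) (Fact.out : p.Prime).one_lt
  obtain ⟨e, he⟩ := ENat.ne_top_iff_exists.1 (PowerSeries.order_eq_top.not.2 ha)
  have hlow : ∀ i < e, PowerSeries.coeff i a = 0 := fun i hi =>
    PowerSeries.coeff_of_lt_order i (by rw [← he]; exact_mod_cast hi)
  have hne : PowerSeries.coeff e a ≠ 0 := by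
    have := PowerSeries.coeff_order ha
    rwa [← he] at this
  obtain ⟨u, rfl⟩ := PowerSeries.X_pow_dvd_iff.2 hlow
  have hu0 : PowerSeries.constantCoeff u ≠ 0 := by
    have h2 := PowerSeries.coeff_X_pow_mul u e 0
    rw [zero_add] at h2
    rw [h2, PowerSeries.coeff_zero_eq_constantCoeff_apply] at hne
    exact hne
  have h1 : (PowerSeries.X : PowerSeries k) ^ (e + P) * u =
      PowerSeries.X ^ (1 + e * p ^ m) * u ^ (p ^ m) := by
    rw [mul_pow, ← pow_mul] at h
    rw [pow_add, pow_add, pow_one]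
    linear_combination h
  have hX : (PowerSeries.X : PowerSeries k) ≠ 0 := PowerSeries.X_ne_zero
  have hdeg : e + P = 1 + e * p ^ m := by
    rcases lt_trichotomy (e + P) (1 + e * p ^ m) with hlt | heq | hgt
    · obtain ⟨d, hd⟩ := Nat.exists_eq_add_of_lt hlt
      have h1' : (PowerSeries.X : PowerSeries k) ^ (e + P) * u =
          PowerSeries.X ^ (e + P) * (PowerSeries.X ^ (d + 1) * u ^ (p ^ m)) := by
        rw [← mul_assoc, ← pow_add, h1, hd, add_assoc]
      have h2 := mul_left_cancel₀ (pow_ne_zero _ hX) h1'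
      have h3 := congrArg PowerSeries.constantCoeff h2
      rw [map_mul, map_pow, PowerSeries.constantCoeff_X, zero_pow (by omega), zero_mul] at h3
      exact absurd h3 hu0
    · exact heq
    · obtain ⟨d, hd⟩ := Nat.exists_eq_add_of_lt hgt
      have h1' : (PowerSeries.X : PowerSeries k) ^ (1 + e * p ^ m) *
          (PowerSeries.X ^ (d + 1) * u) =
          PowerSeries.X ^ (1 + e * p ^ m) * u ^ (p ^ m) := by
        rw [← mul_assoc, ← pow_add, ← h1, hd, ← add_assoc]
      have h2 := mul_left_cancel₀ (pow_ne_zero _ hX) h1'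
      have h3 := congrArg PowerSeries.constantCoeff h2
      rw [map_mul, map_pow, map_pow, PowerSeries.constantCoeff_X, zero_pow (by omega),
        zero_mul] at h3
      exact absurd (pow_eq_zero_iff (by omega) |>.1 h3.symm) hu0
  rw [hdeg] at h1
  have h2 := (mul_left_cancel₀ (pow_ne_zero _ hX) h1).symm
  obtain ⟨hc, hcc⟩ := const_of_pow_eq hm h2
  refine ⟨e, PowerSeries.constantCoeff u, ?_, hcc, ?_⟩
  · rw [← hc, mul_comm]
  · rw [Nat.mul_sub, mul_one]
    omega

/-- an element fixed by the `p^m`-th power and the `p^(m+1)`-th power is an integer. -/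
theorem exists_natCast {m : ℕ} (hk : Nat.card k = p ^ (m + 1)) {c : k} (hc : c ^ (p ^ m) = c) :
    ∃ b : ℕ, (b : k) = c := by
  have hfin : Finite k := Nat.finite_of_card_ne_zero (by
    rw [hk]; exact pow_ne_zero _ (Fact.out : p.Prime).ne_zero)
  have := Fintype.ofFinite k
  have h1 := FiniteField.pow_card c
  rw [← Nat.card_eq_fintype_card, hk, pow_succ, pow_mul, hc] at h1
  obtain ⟨n, hn⟩ := (_root_.mem_bot_iff_intCast p k).1
    ((Subfield.mem_bot_iff_pow_eq_self k p).2 h1)
  refine ⟨(n % p).toNat, ?_⟩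
  have hp0 : (0 : ℤ) < p := by exact_mod_cast (Fact.out : p.Prime).pos
  have h2 : (((n % p).toNat : ℤ) : k) = (n : k) := by
    rw [Int.toNat_of_nonneg (Int.emod_nonneg _ hp0.ne')]
    exact (CharP.intCast_eq_intCast k p).2 (Int.mod_modEq n p)
  rw [← hn, ← h2, Int.cast_natCast]

theorem dvd_of_sub_one {m N e : ℕ} (h : e * (p ^ m - 1) = p ^ N - 1) : m ∣ N := by
  have hp1 : 1 < p := (Fact.out : p.Prime).one_lt
  have h1 : p ^ m - 1 ∣ p ^ N - 1 := ⟨e, by rw [← h, mul_comm]⟩
  have h2 := Nat.pow_sub_one_gcd_pow_sub_one p m N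
  rw [Nat.gcd_eq_left h1] at h2
  have h3 : 1 ≤ p ^ m := Nat.one_le_pow _ _ (by omega)
  have h4 : 1 ≤ p ^ Nat.gcd m N := Nat.one_le_pow _ _ (by omega)
  have h5 : p ^ m = p ^ Nat.gcd m N := by omega
  have h6 := Nat.pow_right_injective hp1 h5
  rw [h6]
  exact Nat.gcd_dvd_right m N

end Field

section Main

variable {k : Type} [Field k] {p : ℕ} [Fact p.Prime] [CharP k p]

theorem charP_ps : CharP (PowerSeries k) p := by
  rw [CharP.charP_iff_prime_eq_zero (Fact.out : p.Prime)]
  have : ((p : k) : k) = 0 := CharP.cast_eq_zero k p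
  rw [← map_natCast (PowerSeries.C (R := k)), this, map_zero]

theorem vanish_succ {F : FormalGroup (PowerSeries k)} (t : EndF F) {N : ℕ}
    (h : ∀ i < p ^ N + 1, t.cf i = 0) : ∀ i < p ^ (N + 1), t.cf i = 0 := by
  have := charP_ps (k := k) (p := p)
  have hp : 1 < p := (Fact.out : p.Prime).one_lt
  obtain ⟨V, hV, hVh⟩ := exists_V_of_vanish p t.isHom (N + 1) (fun i hi =>
    h _ (Nat.lt_succ_of_le (Nat.pow_le_pow_right (by omega) (by omega))))
  intro i hi
  rw [EndF.cf, hV, PowerSeries.coeff_subst_X_pow (pow_ne_zero _ (by omega))]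
  split_ifs with hd
  · rcases Nat.eq_zero_or_pos i with rfl | h0
    · rw [Nat.zero_div, PowerSeries.coeff_zero_eq_constantCoeff_apply, hVh.1, map_zero]
    · exact absurd (Nat.le_of_dvd h0 hd) (by omega)
  · rfl

theorem cf_mul_lt {F : FormalGroup (PowerSeries k)} (f g : EndF F) {a b : ℕ} (hb0 : 0 < b)
    (ha : ∀ i < a, f.cf i = 0) (hb : ∀ i < b, g.cf i = 0) : ∀ i < b * a, (f * g).cf i = 0 :=
  coeff_subst_lt hb0 ha hb

theorem cf_mul_eq {F : FormalGroup (PowerSeries k)} (f g : EndF F) {a b : ℕ} (hb0 : 0 < b)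
    (ha : ∀ i < a, f.cf i = 0) (hb : ∀ i < b, g.cf i = 0) :
    (f * g).cf (b * a) = f.cf a * g.cf b ^ a :=
  coeff_subst_eq hb0 ha hb

end Main

end H141

open H141 in
theorem end_closure {p m : ℕ} [Fact p.Prime] (hm : 1 ≤ m) {k : Type} [Field k]
    (hk : Nat.card k = p ^ (m + 1)) [CharP k p] (F : Law (PowerSeries k))
    (vlow : ∀ i < m, vv p i F = 0) (vX : vv p m F = PowerSeries.X) (t : EndF F.toFG) (N : ℕ) :
    ∃ a : ℕ, ∀ i < p ^ N, (t - (a : EndF F.toFG)).cf i = 0 := by
  have hp1 : 1 < p := (Fact.out : p.Prime).one_lt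
  have hq : 1 < p ^ m := Nat.one_lt_pow (by omega) hp1
  -- `[p]`
  have hA : ∀ i < p ^ m, ((p : ℕ) : EndF F.toFG).cf i = 0 := by
    intro i hi
    rw [EndF.cf, EndF.val_natCast]
    exact coeff_multSeries_lt p F.toFG m vlow i hi
  have hAq : ((p : ℕ) : EndF F.toFG).cf (p ^ m) = PowerSeries.X := by
    rw [EndF.cf, EndF.val_natCast]
    exact vX
  -- `[p^s]`
  have hpow : ∀ s : ℕ, ∃ e : ℕ, e * (p ^ m - 1) = (p ^ m) ^ s - 1 ∧
      (∀ i < (p ^ m) ^ s, (((p : ℕ) : EndF F.toFG) ^ s).cf i = 0) ∧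
      (((p : ℕ) : EndF F.toFG) ^ s).cf ((p ^ m) ^ s) = PowerSeries.X ^ e := by
    intro s
    induction s with
    | zero =>
      refine ⟨0, by simp, fun i hi => ?_, ?_⟩
      · have : i = 0 := by simpa using hi
        subst this
        rw [pow_zero, EndF.cf, EndF.val_one, PowerSeries.coeff_zero_X]
      · rw [pow_zero, pow_zero, EndF.cf, EndF.val_one, PowerSeries.coeff_one_X, pow_zero]
    | succ s ih =>
      obtain ⟨e, he, hl, hc⟩ := ih
      have hs : 1 ≤ (p ^ m) ^ s := Nat.one_le_pow _ _ (by omega)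
      refine ⟨e + (p ^ m) ^ s, ?_, ?_, ?_⟩
      · rw [add_mul, he, Nat.mul_sub, mul_one, pow_succ]
        have : (p ^ m) ^ s ≤ (p ^ m) ^ s * p ^ m := Nat.le_mul_of_pos_right _ (by omega)
        omega
      · rw [pow_succ (((p : ℕ) : EndF F.toFG)), pow_succ' (p ^ m)]
        exact cf_mul_lt _ _ (by omega) hl hA
      · rw [pow_succ (((p : ℕ) : EndF F.toFG)), pow_succ' (p ^ m),
          cf_mul_eq _ _ (by omega) hl hA, hc, hAq, pow_add]
  induction N with
  | zero =>
    refine ⟨0, fun i hi => ?_⟩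
    have : i = 0 := by simpa using hi
    subst this
    exact (PowerSeries.coeff_zero_eq_constantCoeff_apply _).trans (EndF.constantCoeff_val _)
  | succ N ih =>
    obtain ⟨a, ha⟩ := ih
    set t' := t - (a : EndF F.toFG) with ht'
    have hP : 1 ≤ p ^ N := Nat.one_le_pow _ _ (by omega)
    by_cases hz : t'.cf (p ^ N) = 0
    · refine ⟨a, vanish_succ _ fun i hi => ?_⟩
      rcases Nat.lt_succ_iff_lt_or_eq.1 hi with h | rfl
      · exact ha i h
      · exact hz
    · have hcomm : t' * ((p : ℕ) : EndF F.toFG) = ((p : ℕ) : EndF F.toFG) * t' :=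
        (Nat.cast_commute p t').symm.eq
      have h1 := cf_mul_eq t' ((p : ℕ) : EndF F.toFG) (by omega) ha hA
      have h2 := cf_mul_eq ((p : ℕ) : EndF F.toFG) t' (by omega) hA ha
      rw [hcomm, mul_comm (p ^ m), h2, hAq] at h1
      obtain ⟨e, c, hec, hc, he⟩ := lead_form (p := p) hm hP hz h1.symm
      obtain ⟨s, rfl⟩ := dvd_of_sub_one he
      obtain ⟨e', he', hl', hc'⟩ := hpow s
      have hee : e = e' := by
        have : e * (p ^ m - 1) = e' * (p ^ m - 1) := by rw [he, he', pow_mul]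
        exact Nat.eq_of_mul_eq_mul_right (by omega) this
      subst hee
      obtain ⟨b, hb⟩ := exists_natCast hk hc
      have hb1 : ∀ i < 1, ((b : ℕ) : EndF F.toFG).cf i = 0 := by
        intro i hi
        have : i = 0 := by omega
        subst this
        exact (PowerSeries.coeff_zero_eq_constantCoeff_apply _).trans (EndF.constantCoeff_val _)
      have hb2 : ((b : ℕ) : EndF F.toFG).cf 1 = PowerSeries.C c := by
        rw [EndF.cf, EndF.val_natCast, coeff_one_multSeries, ← hb, map_natCast]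
      have hg1 := cf_mul_lt ((b : ℕ) : EndF F.toFG) (((p : ℕ) : EndF F.toFG) ^ s)
        (by rw [← pow_mul]; omega) hb1 hl'
      have hg2 := cf_mul_eq ((b : ℕ) : EndF F.toFG) (((p : ℕ) : EndF F.toFG) ^ s)
        (by rw [← pow_mul]; omega) hb1 hl'
      rw [mul_one, hb2, hc', pow_one] at hg2
      rw [mul_one] at hg1
      rw [← pow_mul] at hg1 hg2
      refine ⟨a + b * p ^ s, ?_⟩
      have e1 : t - ((a + b * p ^ s : ℕ) : EndF F.toFG) =
          t' - ((b : ℕ) : EndF F.toFG) * ((p : ℕ) : EndF F.toFG) ^ s := by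
        rw [ht']
        push_cast
        abel
      rw [e1]
      apply vanish_succ
      have h3 : Agr EndF.cf (p ^ (m * s) + 1)
          (((b : ℕ) : EndF F.toFG) * ((p : ℕ) : EndF F.toFG) ^ s) t' := by
        intro i hi
        rcases Nat.lt_succ_iff_lt_or_eq.1 hi with h | rfl
        · rw [ha i h, hg1 i h]
        · rw [hg2, hec]
      have h4 := EndF.agr_add h3 (Agr.refl EndF.cf (p ^ (m * s) + 1)
        (-(((b : ℕ) : EndF F.toFG) * ((p : ℕ) : EndF F.toFG) ^ s)))
      rw [add_neg_cancel, ← sub_eq_add_neg] at h4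
      intro i hi
      rw [h4 i hi]
      exact map_zero _

end Vale.Agent.P261
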